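import Mathlib

open MeasureTheory ProbabilityTheory
open scoped NNReal ENNReal

namespace Vale.Agent.P249

theorem pi_ac (k : ℕ) : Measure.pi (fun _ : Fin k => gaussianReal 0 1) ≪
    (volume : Measure (Fin k → ℝ)) := by
  induction k with
  | zero =>
    rw [volume_pi, Measure.pi_of_empty, Measure.pi_of_empty]
  | succ k ih =>
    have h1 := measurePreserving_piFinSuccAbove (fun _ : Fin (k + 1) => gaussianReal 0 1) 0
    have h2 := volume_preserving_piFinSuccAbove (fun _ : Fin (k + 1) => ℝ) 0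
    have h3 : (gaussianReal 0 1).prod (Measure.pi (fun _ : Fin k => gaussianReal 0 1)) ≪
        (volume : Measure ℝ).prod (volume : Measure (Fin k → ℝ)) :=
      (gaussianReal_absolutelyContinuous 0 one_ne_zero).prod ih
    have h4 := h3.map (MeasurableEquiv.piFinSuccAbove (fun _ : Fin (k + 1) => ℝ) 0).symm.measurable
    rw [(h1.symm (MeasurableEquiv.piFinSuccAbove (fun _ : Fin (k + 1) => ℝ) 0)).map_eq] at h4
    have h5 := (h2.symm (MeasurableEquiv.piFinSuccAbove (fun _ : Fin (k + 1) => ℝ) 0)).map_eq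
    exact h4.trans (by rw [← h5]; exact Measure.AbsolutelyContinuous.rfl)

theorem std_ac (k : ℕ) : stdGaussian (EuclideanSpace ℝ (Fin k)) ≪
    (volume : Measure (EuclideanSpace ℝ (Fin k))) := by
  rw [← map_pi_eq_stdGaussian, ← (PiLp.volume_preserving_toLp (Fin k)).map_eq]
  exact (pi_ac k).map (WithLp.measurable_toLp 2 _)

/-- the law of a functional -/
theorem lintegral_dual (k : ℕ) (P : ℝ) (hP : 0 ≤ P)
    (A : StrongDual ℝ (EuclideanSpace ℝ (Fin k))) :
    ∫⁻ z, ‖A z‖ₑ ^ P ∂(stdGaussian (EuclideanSpace ℝ (Fin k))) =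
      ‖A‖ₑ ^ P * ∫⁻ t, ‖t‖ₑ ^ P ∂(gaussianReal 0 1) := by
  have h1 := IsGaussian.map_eq_gaussianReal (μ := stdGaussian (EuclideanSpace ℝ (Fin k))) A
  rw [integral_strongDual_stdGaussian, variance_dual_stdGaussian] at h1
  have h2 := gaussianReal_map_const_mul (μ := 0) (v := 1) ‖A‖
  have h3 : (stdGaussian (EuclideanSpace ℝ (Fin k))).map A =
      (gaussianReal 0 1).map (‖A‖ * ·) := by
    rw [h1, h2]
    congr 1
    · simp
    · rw [mul_one]
      ext
      simp
  have h4 : ∫⁻ z, ‖A z‖ₑ ^ P ∂(stdGaussian (EuclideanSpace ℝ (Fin k))) =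
      ∫⁻ t, ‖t‖ₑ ^ P ∂((stdGaussian (EuclideanSpace ℝ (Fin k))).map A) := by
    rw [lintegral_map (by fun_prop) A.continuous.measurable]
  rw [h4, h3, lintegral_map (by fun_prop) (by fun_prop), ← lintegral_const_mul _ (by fun_prop)]
  refine lintegral_congr fun t => ?_
  rw [enorm_mul, ENNReal.mul_rpow_of_nonneg _ _ hP, enorm_norm]

theorem cos_sub_one_le (h : ℝ) : |Real.cos h - 1| ≤ |h| := by
  have := Real.abs_cos_sub_cos_le h 0
  simpa using this

end Vale.Agent.P249
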