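import Mathlib
import Vale.Agent.P249.Low.GaussAux

open MeasureTheory ProbabilityTheory Filter
open scoped NNReal ENNReal Topology

namespace Vale.Agent.P249

/-- increment along a small rotation -/
noncomputable def rotInc {k : ℕ} (g : EuclideanSpace ℝ (Fin k) → ℝ) (h : ℝ)
    (z : EuclideanSpace ℝ (Fin k) × EuclideanSpace ℝ (Fin k)) : ℝ :=
  g (Real.cos h • z.1 + Real.sin h • z.2) - g z.1

theorem rot_mp (k : ℕ) (θ : ℝ) : MeasurePreserving
    (ContinuousLinearMap.rotation (E := EuclideanSpace ℝ (Fin k)) θ)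
    ((stdGaussian (EuclideanSpace ℝ (Fin k))).prod (stdGaussian (EuclideanSpace ℝ (Fin k))))
    ((stdGaussian (EuclideanSpace ℝ (Fin k))).prod (stdGaussian (EuclideanSpace ℝ (Fin k)))) := by
  refine ⟨(ContinuousLinearMap.rotation θ).continuous.measurable, ?_⟩
  apply IsGaussian.map_rotation_eq_self
  simp [integral_id_stdGaussian]

theorem rotInc_cont {k : ℕ} {g : EuclideanSpace ℝ (Fin k) → ℝ} (hg : Continuous g) (h : ℝ) :
    Continuous (rotInc g h) := by
  unfold rotInc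
  fun_prop

theorem telescope {k : ℕ} (g : EuclideanSpace ℝ (Fin k) → ℝ) (N : ℕ) (hN : 0 < N)
    (z : EuclideanSpace ℝ (Fin k) × EuclideanSpace ℝ (Fin k)) :
    g z.2 - g z.1 = ∑ j ∈ Finset.range N, rotInc g (Real.pi / 2 / N)
      (ContinuousLinearMap.rotation (j * (Real.pi / 2 / N)) z) := by
  set h := Real.pi / 2 / N with hh
  have h1 : ∀ j : ℕ, rotInc g h (ContinuousLinearMap.rotation (j * h) z) =
      g (Real.cos (((j + 1 : ℕ) : ℝ) * h) • z.1 + Real.sin (((j + 1 : ℕ) : ℝ) * h) • z.2) -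
      g (Real.cos ((j : ℝ) * h) • z.1 + Real.sin ((j : ℝ) * h) • z.2) := by
    intro j
    unfold rotInc
    rw [ContinuousLinearMap.rotation_apply]
    simp only
    congr 2
    have e : ((j + 1 : ℕ) : ℝ) * h = h + j * h := by push_cast; ring
    rw [e, Real.cos_add, Real.sin_add]
    module
  rw [Finset.sum_congr rfl fun j _ => h1 j, Finset.sum_range_sub (fun j : ℕ =>
    g (Real.cos ((j : ℝ) * h) • z.1 + Real.sin ((j : ℝ) * h) • z.2))]
  have h2 : (N : ℝ) * h = Real.pi / 2 := by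
    rw [hh]; field_simp
  rw [h2]
  simp

theorem moment_step {k : ℕ} (P : ℝ) (hP : 1 ≤ P) (L : ℝ≥0)
    (g : EuclideanSpace ℝ (Fin k) → ℝ) (hg : LipschitzWith L g) (N : ℕ) (hN : 0 < N) :
    ∫⁻ z : EuclideanSpace ℝ (Fin k) × EuclideanSpace ℝ (Fin k), ‖g z.2 - g z.1‖ₑ ^ P
      ∂((stdGaussian (EuclideanSpace ℝ (Fin k))).prod (stdGaussian (EuclideanSpace ℝ (Fin k)))) ≤
    ∫⁻ z : EuclideanSpace ℝ (Fin k) × EuclideanSpace ℝ (Fin k),
      ‖(N : ℝ) * rotInc g (Real.pi / 2 / N) z‖ₑ ^ P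
      ∂((stdGaussian (EuclideanSpace ℝ (Fin k))).prod (stdGaussian (EuclideanSpace ℝ (Fin k)))) := by
  set γ := (stdGaussian (EuclideanSpace ℝ (Fin k))).prod
    (stdGaussian (EuclideanSpace ℝ (Fin k))) with hγ
  have hP0 : 0 < P := by linarith
  set h := Real.pi / 2 / N with hh
  have hp0 : ENNReal.ofReal P ≠ 0 := by simp [hP0]
  have hpt : ENNReal.ofReal P ≠ ∞ := ENNReal.ofReal_ne_top
  have hpr : (ENNReal.ofReal P).toReal = P := ENNReal.toReal_ofReal hP0.le
  have hgc := hg.continuous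
  have hc : Continuous (rotInc g h) := rotInc_cont hgc h
  have h1 : eLpNorm (fun z : EuclideanSpace ℝ (Fin k) × EuclideanSpace ℝ (Fin k) => g z.2 - g z.1)
      (ENNReal.ofReal P) γ ≤ eLpNorm (fun z => (N : ℝ) * rotInc g h z) (ENNReal.ofReal P) γ := by
    have e1 : (fun z : EuclideanSpace ℝ (Fin k) × EuclideanSpace ℝ (Fin k) => g z.2 - g z.1) =
        ∑ j ∈ Finset.range N, (rotInc g h) ∘ (ContinuousLinearMap.rotation (j * h)) := by
      ext z
      rw [telescope g N hN z, Finset.sum_apply]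
      rfl
    rw [e1]
    refine (eLpNorm_sum_le (fun j _ => ?_) ?_).trans ?_
    · exact (hc.comp (ContinuousLinearMap.rotation _).continuous).aestronglyMeasurable
    · rw [← ENNReal.ofReal_one]; exact ENNReal.ofReal_le_ofReal hP
    · have e2 : ∀ j ∈ Finset.range N, eLpNorm ((rotInc g h) ∘
          (ContinuousLinearMap.rotation (j * h))) (ENNReal.ofReal P) γ =
          eLpNorm (rotInc g h) (ENNReal.ofReal P) γ := fun j _ =>
        eLpNorm_comp_measurePreserving hc.aestronglyMeasurable (rot_mp k _)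
      rw [Finset.sum_congr rfl e2, Finset.sum_const, Finset.card_range]
      have e3 : eLpNorm (fun z => (N : ℝ) * rotInc g h z) (ENNReal.ofReal P) γ =
          ‖(N : ℝ)‖ₑ * eLpNorm (rotInc g h) (ENNReal.ofReal P) γ :=
        eLpNorm_const_smul (N : ℝ) (rotInc g h) _ _
      rw [e3, nsmul_eq_mul]
      apply le_of_eq
      congr 1
      rw [Real.enorm_eq_ofReal (Nat.cast_nonneg N), ENNReal.ofReal_natCast]
  rw [eLpNorm_eq_lintegral_rpow_enorm_toReal hp0 hpt,
    eLpNorm_eq_lintegral_rpow_enorm_toReal hp0 hpt, hpr] at h1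
  exact (ENNReal.rpow_le_rpow_iff (by positivity)).1 h1

theorem rotInc_tendsto {k : ℕ} (g : EuclideanSpace ℝ (Fin k) → ℝ)
    (z : EuclideanSpace ℝ (Fin k) × EuclideanSpace ℝ (Fin k)) (hd : DifferentiableAt ℝ g z.1) :
    Tendsto (fun N : ℕ => (N : ℝ) * rotInc g (Real.pi / 2 / N) z) atTop
      (𝓝 (Real.pi / 2 * fderiv ℝ g z.1 z.2)) := by
  have h1 : HasDerivAt (fun h : ℝ => Real.cos h • z.1 + Real.sin h • z.2)
      (-Real.sin 0 • z.1 + Real.cos 0 • z.2) 0 :=
    ((Real.hasDerivAt_cos 0).smul_const z.1).add ((Real.hasDerivAt_sin 0).smul_const z.2)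
  have h2 : HasDerivAt (fun h : ℝ => g (Real.cos h • z.1 + Real.sin h • z.2))
      (fderiv ℝ g z.1 z.2) 0 := by
    have h3 : HasFDerivAt g (fderiv ℝ g z.1) (Real.cos 0 • z.1 + Real.sin 0 • z.2) := by
      simpa using hd.hasFDerivAt
    have h4 : HasDerivAt (fun h : ℝ => g (Real.cos h • z.1 + Real.sin h • z.2))
      (fderiv ℝ g z.1 (-Real.sin 0 • z.1 + Real.cos 0 • z.2)) 0 := h3.comp_hasDerivAt (0:ℝ) h1
    have e : -Real.sin 0 • z.1 + Real.cos 0 • z.2 = z.2 := by simp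
    rw [e] at h4
    exact h4
  have h5 := h2.tendsto_slope_zero
  have h6 : Tendsto (fun N : ℕ => Real.pi / 2 / (N : ℝ)) atTop (𝓝[≠] 0) := by
    rw [tendsto_nhdsWithin_iff]
    refine ⟨tendsto_const_div_atTop_nhds_zero_nat _, ?_⟩
    filter_upwards [eventually_gt_atTop 0] with N hN
    have : (0:ℝ) < N := Nat.cast_pos.2 hN
    have hpi := Real.pi_pos
    simp only [Set.mem_compl_iff, Set.mem_singleton_iff]
    positivity
  have h7 := (h5.comp h6).const_mul (Real.pi / 2)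
  refine h7.congr' ?_
  filter_upwards [eventually_gt_atTop 0] with N hN
  have : (0:ℝ) < N := Nat.cast_pos.2 hN
  have hpi := Real.pi_pos
  simp only [Function.comp_apply, zero_add, Real.cos_zero, one_smul, Real.sin_zero, zero_smul,
    add_zero, smul_eq_mul, rotInc]
  field_simp

theorem rotInc_bound {k : ℕ} (L : ℝ≥0) (g : EuclideanSpace ℝ (Fin k) → ℝ)
    (hg : LipschitzWith L g) (N : ℕ)
    (z : EuclideanSpace ℝ (Fin k) × EuclideanSpace ℝ (Fin k)) :
    |(N : ℝ) * rotInc g (Real.pi / 2 / N) z| ≤ Real.pi / 2 * L * (‖z.1‖ + ‖z.2‖) := by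
  rcases Nat.eq_zero_or_pos N with h0 | h0
  · subst h0
    simp
    positivity
  have hN : (0:ℝ) < N := Nat.cast_pos.2 h0
  have hpi := Real.pi_pos
  set h := Real.pi / 2 / N with hh
  have hh0 : 0 < h := by positivity
  rw [abs_mul, abs_of_pos hN]
  have h1 : |rotInc g h z| ≤ L * (h * (‖z.1‖ + ‖z.2‖)) := by
    unfold rotInc
    have h2 := hg.dist_le_mul (Real.cos h • z.1 + Real.sin h • z.2) z.1
    rw [Real.dist_eq, dist_eq_norm] at h2
    refine h2.trans (mul_le_mul_of_nonneg_left ?_ L.coe_nonneg)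
    have e : Real.cos h • z.1 + Real.sin h • z.2 - z.1 =
        (Real.cos h - 1) • z.1 + Real.sin h • z.2 := by module
    rw [e]
    refine (norm_add_le _ _).trans ?_
    rw [norm_smul, norm_smul, Real.norm_eq_abs, Real.norm_eq_abs]
    have h3 : |Real.cos h - 1| ≤ h := by
      have := cos_sub_one_le h
      rwa [abs_of_pos hh0] at this
    have h4 : |Real.sin h| ≤ h := by
      have := Real.abs_sin_sub_sin_le h 0
      simp only [Real.sin_zero, sub_zero, abs_of_pos hh0] at this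
      exact this
    have h5 := mul_le_mul_of_nonneg_right h3 (norm_nonneg z.1)
    have h6 := mul_le_mul_of_nonneg_right h4 (norm_nonneg z.2)
    linarith
  calc (N : ℝ) * |rotInc g h z| ≤ N * (L * (h * (‖z.1‖ + ‖z.2‖))) :=
        mul_le_mul_of_nonneg_left h1 hN.le
    _ = (N * h) * L * (‖z.1‖ + ‖z.2‖) := by ring
    _ = Real.pi / 2 * L * (‖z.1‖ + ‖z.2‖) := by
        have : (N:ℝ) * h = Real.pi / 2 := by rw [hh]; field_simp
        rw [this]

theorem memLp_norms (k : ℕ) (p : ℝ≥0∞) (hp : p ≠ ∞) (C : ℝ) :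
    MemLp (fun z : EuclideanSpace ℝ (Fin k) × EuclideanSpace ℝ (Fin k) => C * (‖z.1‖ + ‖z.2‖)) p
      ((stdGaussian (EuclideanSpace ℝ (Fin k))).prod
        (stdGaussian (EuclideanSpace ℝ (Fin k)))) := by
  have h1 : MemLp (fun x : EuclideanSpace ℝ (Fin k) => ‖x‖) p
      (stdGaussian (EuclideanSpace ℝ (Fin k))) :=
    (IsGaussian.memLp_id (stdGaussian (EuclideanSpace ℝ (Fin k))) p hp).norm
  exact ((h1.comp_measurePreserving measurePreserving_fst).add
    (h1.comp_measurePreserving measurePreserving_snd)).const_mul C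

theorem lint_moment (k : ℕ) (P : ℝ) (hP : 1 ≤ P) (L : ℝ≥0)
    (g : EuclideanSpace ℝ (Fin k) → ℝ) (hg : LipschitzWith L g) :
    ∫⁻ z : EuclideanSpace ℝ (Fin k) × EuclideanSpace ℝ (Fin k), ‖g z.2 - g z.1‖ₑ ^ P
      ∂((stdGaussian (EuclideanSpace ℝ (Fin k))).prod (stdGaussian (EuclideanSpace ℝ (Fin k)))) ≤
    ENNReal.ofReal ((Real.pi / 2 * L) ^ P) * ∫⁻ t, ‖t‖ₑ ^ P ∂(gaussianReal 0 1) := by
  set γ := stdGaussian (EuclideanSpace ℝ (Fin k)) with hγ
  have hP0 : 0 < P := by linarith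
  have hpi := Real.pi_pos
  have hdiff : ∀ᵐ z : EuclideanSpace ℝ (Fin k) × EuclideanSpace ℝ (Fin k) ∂(γ.prod γ),
      DifferentiableAt ℝ g z.1 := by
    have h1 : ∀ᵐ x ∂γ, DifferentiableAt ℝ g x := (std_ac k).ae_le hg.ae_differentiableAt
    exact (measurePreserving_fst (μ := γ) (ν := γ)).quasiMeasurePreserving.ae h1
  have hlim : Tendsto (fun N : ℕ => ∫⁻ z : EuclideanSpace ℝ (Fin k) × EuclideanSpace ℝ (Fin k),
      ‖(N : ℝ) * rotInc g (Real.pi / 2 / N) z‖ₑ ^ P ∂(γ.prod γ)) atTop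
      (𝓝 (∫⁻ z : EuclideanSpace ℝ (Fin k) × EuclideanSpace ℝ (Fin k),
        ‖Real.pi / 2 * fderiv ℝ g z.1 z.2‖ₑ ^ P ∂(γ.prod γ))) := by
    refine tendsto_lintegral_of_dominated_convergence
      (fun z => ‖Real.pi / 2 * L * (‖z.1‖ + ‖z.2‖)‖ₑ ^ P) ?_ ?_ ?_ ?_
    · intro N
      have := (rotInc_cont hg.continuous (Real.pi / 2 / N)).measurable
      fun_prop
    · intro N
      refine Eventually.of_forall fun z => ?_
      apply ENNReal.rpow_le_rpow _ hP0.le
      rw [enorm_le_iff_norm_le, Real.norm_eq_abs]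
      refine (rotInc_bound L g hg N z).trans (le_abs_self _)
    · have h1 := (memLp_norms k (ENNReal.ofReal P) ENNReal.ofReal_ne_top (Real.pi / 2 * L))
      have h2 := h1.eLpNorm_lt_top
      rw [eLpNorm_lt_top_iff_lintegral_rpow_enorm_lt_top (by simp [hP0]) ENNReal.ofReal_ne_top,
        ENNReal.toReal_ofReal hP0.le] at h2
      exact h2.ne
    · filter_upwards [hdiff] with z hz
      exact ((rotInc_tendsto g z hz).enorm).ennrpow_const P
  have hle : ∫⁻ z : EuclideanSpace ℝ (Fin k) × EuclideanSpace ℝ (Fin k), ‖g z.2 - g z.1‖ₑ ^ P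
      ∂(γ.prod γ) ≤ ∫⁻ z : EuclideanSpace ℝ (Fin k) × EuclideanSpace ℝ (Fin k),
        ‖Real.pi / 2 * fderiv ℝ g z.1 z.2‖ₑ ^ P ∂(γ.prod γ) := by
    refine ge_of_tendsto hlim ?_
    filter_upwards [eventually_gt_atTop 0] with N hN
    exact moment_step P hP L g hg N hN
  refine hle.trans ?_
  have hmeas : Measurable (fun z : EuclideanSpace ℝ (Fin k) × EuclideanSpace ℝ (Fin k) =>
      ‖Real.pi / 2 * fderiv ℝ g z.1 z.2‖ₑ ^ P) := by
    have h1 : Measurable (fun z : EuclideanSpace ℝ (Fin k) × EuclideanSpace ℝ (Fin k) =>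
        fderiv ℝ g z.1 z.2) :=
      ContinuousLinearMap.measurable_apply₂.comp
        (((measurable_fderiv ℝ g).comp measurable_fst).prodMk measurable_snd)
    fun_prop
  rw [lintegral_prod _ hmeas.aemeasurable]
  calc ∫⁻ x, ∫⁻ y, ‖Real.pi / 2 * fderiv ℝ g x y‖ₑ ^ P ∂γ ∂γ ≤
      ∫⁻ _x, ENNReal.ofReal ((Real.pi / 2 * L) ^ P) * ∫⁻ t, ‖t‖ₑ ^ P ∂(gaussianReal 0 1) ∂γ := by
        apply lintegral_mono
        intro x
        simp only
        have h1 : ∀ y, ‖Real.pi / 2 * fderiv ℝ g x y‖ₑ ^ P =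
            ‖((Real.pi / 2) • fderiv ℝ g x) y‖ₑ ^ P := fun y => rfl
        simp_rw [h1]
        rw [lintegral_dual k P hP0.le]
        apply mul_le_mul_left
        rw [← ENNReal.ofReal_rpow_of_nonneg (by positivity) hP0.le]
        apply ENNReal.rpow_le_rpow _ hP0.le
        rw [enorm_smul, Real.enorm_eq_ofReal (by positivity),
          ENNReal.ofReal_mul (by positivity)]
        apply mul_le_mul_right
        rw [← ofReal_norm]
        exact ENNReal.ofReal_le_ofReal (norm_fderiv_le_of_lipschitz ℝ hg)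
    _ = _ := by simp

theorem gauss_moment (k : ℕ) (P : ℝ) (hP : 1 ≤ P) (L : ℝ≥0)
    (g : EuclideanSpace ℝ (Fin k) → ℝ) (hg : LipschitzWith L g) :
    Integrable (fun z : EuclideanSpace ℝ (Fin k) × EuclideanSpace ℝ (Fin k) =>
        |g z.1 - g z.2| ^ P)
      ((stdGaussian (EuclideanSpace ℝ (Fin k))).prod (stdGaussian (EuclideanSpace ℝ (Fin k)))) ∧
    ∫ z : EuclideanSpace ℝ (Fin k) × EuclideanSpace ℝ (Fin k), |g z.1 - g z.2| ^ P
      ∂((stdGaussian (EuclideanSpace ℝ (Fin k))).prod (stdGaussian (EuclideanSpace ℝ (Fin k))))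
      ≤ (Real.pi / 2 * L) ^ P * ∫ t, |t| ^ P ∂(gaussianReal 0 1) := by
  set γ := stdGaussian (EuclideanSpace ℝ (Fin k)) with hγ
  have hP0 : 0 < P := by linarith
  have hpi := Real.pi_pos
  have h1 := lint_moment k P hP L g hg
  have e1 : ∀ z : EuclideanSpace ℝ (Fin k) × EuclideanSpace ℝ (Fin k),
      ‖g z.2 - g z.1‖ₑ ^ P = ENNReal.ofReal (|g z.1 - g z.2| ^ P) := by
    intro z
    rw [← ENNReal.ofReal_rpow_of_nonneg (abs_nonneg _) hP0.le, abs_sub_comm,
      Real.enorm_eq_ofReal_abs]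
  have e2 : ∀ t : ℝ, ‖t‖ₑ ^ P = ENNReal.ofReal (|t| ^ P) := by
    intro t
    rw [← ENNReal.ofReal_rpow_of_nonneg (abs_nonneg _) hP0.le, Real.enorm_eq_ofReal_abs]
  simp_rw [e1, e2] at h1
  have i1 : Integrable (fun t : ℝ => |t| ^ P) (gaussianReal 0 1) := by
    have h2 := (IsGaussian.memLp_id (gaussianReal 0 1) (ENNReal.ofReal P) ENNReal.ofReal_ne_top)
    have h3 := h2.integrable_norm_rpow (by simp [hP0]) ENNReal.ofReal_ne_top
    rw [ENNReal.toReal_ofReal hP0.le] at h3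
    exact h3
  have h4 : ∫⁻ t, ENNReal.ofReal (|t| ^ P) ∂(gaussianReal 0 1) =
      ENNReal.ofReal (∫ t, |t| ^ P ∂(gaussianReal 0 1)) :=
    (ofReal_integral_eq_lintegral_ofReal i1
      (Eventually.of_forall fun t => Real.rpow_nonneg (abs_nonneg _) _)).symm
  rw [h4, ← ENNReal.ofReal_mul (by positivity)] at h1
  have hgc := hg.continuous
  have hm : AEStronglyMeasurable (fun z : EuclideanSpace ℝ (Fin k) × EuclideanSpace ℝ (Fin k) =>
        |g z.1 - g z.2| ^ P) (γ.prod γ) := by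
    apply Continuous.aestronglyMeasurable
    exact (((hgc.comp continuous_fst).sub (hgc.comp continuous_snd)).abs).rpow_const
      (fun _ => Or.inr hP0.le)
  have i2 : Integrable (fun z : EuclideanSpace ℝ (Fin k) × EuclideanSpace ℝ (Fin k) =>
        |g z.1 - g z.2| ^ P) (γ.prod γ) := by
    refine ⟨hm, ?_⟩
    rw [hasFiniteIntegral_iff_ofReal (Eventually.of_forall fun z =>
      Real.rpow_nonneg (abs_nonneg _) _)]
    exact h1.trans_lt ENNReal.ofReal_lt_top
  refine ⟨i2, ?_⟩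
  rw [integral_eq_lintegral_of_nonneg_ae (Eventually.of_forall fun z =>
      Real.rpow_nonneg (abs_nonneg _) _) hm]
  apply ENNReal.toReal_le_of_le_ofReal _ h1
  apply mul_nonneg (by positivity)
  exact integral_nonneg fun t => Real.rpow_nonneg (abs_nonneg _) _

end Vale.Agent.P249
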