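import Mathlib

open MeasureTheory ProbabilityTheory

namespace Vale.Agent.P249

theorem cos_gauss (t : ℝ) : ∫ x, Real.cos (t * x) ∂(gaussianReal 0 1) = Real.exp (-(t ^ 2 / 2)) := by
  have h := charFun_gaussianReal (μ := 0) (v := 1) t
  rw [charFun_apply_real] at h
  have h1 : (∫ x, Complex.exp (t * x * Complex.I) ∂(gaussianReal 0 1)).re =
      ∫ x, Real.cos (t * x) ∂(gaussianReal 0 1) := by
    rw [← RCLike.re_eq_complex_re, ← integral_re]
    · congr 1
      ext x
      rw [RCLike.re_eq_complex_re, ← Complex.ofReal_mul, Complex.exp_ofReal_mul_I_re]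
    · refine Integrable.of_bound (C := 1) (by fun_prop) (Filter.Eventually.of_forall fun x => ?_)
      rw [← Complex.ofReal_mul, Complex.norm_exp_ofReal_mul_I]
  rw [← h1, h]
  simp only [Complex.ofReal_zero, mul_zero, zero_mul, NNReal.coe_one, Complex.ofReal_one, one_mul,
    zero_sub]
  rw [show (-((t:ℂ) ^ 2 / 2)) = ((-(t ^ 2 / 2) : ℝ) : ℂ) by push_cast; ring, Complex.exp_ofReal_re]

theorem sin_gauss : ∫ x, Real.sin x ∂(gaussianReal 0 1) = 0 := by
  have h := charFun_gaussianReal (μ := 0) (v := 1) 1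
  rw [charFun_apply_real] at h
  have h1 : (∫ x, Complex.exp ((1:ℝ) * x * Complex.I) ∂(gaussianReal 0 1)).im =
      ∫ x, Real.sin x ∂(gaussianReal 0 1) := by
    rw [← RCLike.im_eq_complex_im, ← integral_im]
    · congr 1
      ext x
      rw [RCLike.im_eq_complex_im, ← Complex.ofReal_mul, Complex.exp_ofReal_mul_I_im, one_mul]
    · refine Integrable.of_bound (C := 1) (by fun_prop) (Filter.Eventually.of_forall fun x => ?_)
      rw [← Complex.ofReal_mul, Complex.norm_exp_ofReal_mul_I]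
  rw [← h1, h]
  simp only [Complex.ofReal_zero, mul_zero, zero_mul, NNReal.coe_one, Complex.ofReal_one, one_mul,
    zero_sub]
  rw [show (-((1:ℂ) ^ 2 / 2)) = ((-(1 / 2) : ℝ) : ℂ) by push_cast; ring, Complex.exp_ofReal_im]

theorem sin_sq_gauss : ∫ x, Real.sin x ^ 2 ∂(gaussianReal 0 1) = (1 - Real.exp (-2)) / 2 := by
  have h := cos_gauss 2
  have h1 : ∀ x : ℝ, Real.sin x ^ 2 = (1 / 2 : ℝ) - (1 / 2) * Real.cos (2 * x) := by
    intro x
    rw [Real.cos_two_mul, Real.sin_sq]
    ring
  simp_rw [h1]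
  rw [integral_sub (integrable_const _), integral_const_mul, h]
  · simp
    norm_num
    ring
  · apply Integrable.const_mul
    refine Integrable.of_bound (C := 1) (by fun_prop) (Filter.Eventually.of_forall fun x => ?_)
    rw [Real.norm_eq_abs]
    exact Real.abs_cos_le_one _

theorem sin_moment : ∫ z : ℝ × ℝ, (Real.sin z.1 - Real.sin z.2) ^ 2
    ∂((gaussianReal 0 1).prod (gaussianReal 0 1)) = 1 - Real.exp (-2) := by
  set γ := gaussianReal 0 1 with hγ
  have i1 : Integrable (fun x => Real.sin x) γ :=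
    Integrable.of_bound (C := 1) (by fun_prop) (Filter.Eventually.of_forall fun x => by
      rw [Real.norm_eq_abs]; exact Real.abs_sin_le_one _)
  have i2 : Integrable (fun x => Real.sin x ^ 2) γ :=
    Integrable.of_bound (C := 1) (by fun_prop) (Filter.Eventually.of_forall fun x => by
      rw [Real.norm_eq_abs, abs_of_nonneg (sq_nonneg _)]; exact Real.sin_sq_le_one _)
  have e : ∀ z : ℝ × ℝ, (Real.sin z.1 - Real.sin z.2) ^ 2 =
      Real.sin z.1 ^ 2 * 1 + 1 * Real.sin z.2 ^ 2 - 2 * (Real.sin z.1 * Real.sin z.2) := by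
    intro z; ring
  simp_rw [e]
  have j1 : Integrable (fun z : ℝ × ℝ => Real.sin z.1 ^ 2 * 1) (γ.prod γ) :=
    i2.mul_prod (integrable_const 1)
  have j2 : Integrable (fun z : ℝ × ℝ => 1 * Real.sin z.2 ^ 2) (γ.prod γ) :=
    (integrable_const (1:ℝ)).mul_prod i2
  have j3 : Integrable (fun z : ℝ × ℝ => Real.sin z.1 * Real.sin z.2) (γ.prod γ) :=
    i1.mul_prod i1
  have j12 : Integrable (fun z : ℝ × ℝ => Real.sin z.1 ^ 2 * 1 + 1 * Real.sin z.2 ^ 2)
      (γ.prod γ) := j1.add j2
  rw [integral_sub j12 (j3.const_mul 2), integral_add j1 j2,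
    integral_prod_mul (fun x => Real.sin x ^ 2) (fun _ => (1:ℝ)),
    integral_prod_mul (fun _ => (1:ℝ)) (fun x => Real.sin x ^ 2), integral_const_mul,
    integral_prod_mul (fun x => Real.sin x) (fun x => Real.sin x), sin_gauss, sin_sq_gauss]
  simp

/-- coordinatewise sine -/
noncomputable def sinMap (k : ℕ) (x : EuclideanSpace ℝ (Fin k)) : EuclideanSpace ℝ (Fin k) :=
  WithLp.toLp 2 (fun i => Real.sin (x i))

theorem sinMap_apply (k : ℕ) (x : EuclideanSpace ℝ (Fin k)) (i : Fin k) :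
    sinMap k x i = Real.sin (x i) := rfl

theorem sinMap_lip (k : ℕ) (x y : EuclideanSpace ℝ (Fin k)) :
    ‖sinMap k x - sinMap k y‖ ≤ ‖x - y‖ := by
  rw [EuclideanSpace.norm_eq, EuclideanSpace.norm_eq]
  apply Real.sqrt_le_sqrt
  apply Finset.sum_le_sum
  intro i _
  simp only [PiLp.sub_apply, sinMap_apply, Real.norm_eq_abs]
  exact pow_le_pow_left₀ (abs_nonneg _) (Real.abs_sin_sub_sin_le _ _) 2

theorem sinMap_cont (k : ℕ) : Continuous (sinMap k) := by
  have : LipschitzWith 1 (sinMap k) := LipschitzWith.of_dist_le_mul (fun x y => by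
    rw [dist_eq_norm, dist_eq_norm]; simpa using sinMap_lip k x y)
  exact this.continuous

theorem sinMap_sq (k : ℕ) (x y : EuclideanSpace ℝ (Fin k)) :
    ‖sinMap k x - sinMap k y‖ ^ 2 = ∑ i, (Real.sin (x i) - Real.sin (y i)) ^ 2 := by
  rw [EuclideanSpace.norm_sq_eq]
  refine Finset.sum_congr rfl fun i _ => ?_
  simp only [PiLp.sub_apply, sinMap_apply, Real.norm_eq_abs, sq_abs]

theorem sinMap_sq_le (k : ℕ) (x y : EuclideanSpace ℝ (Fin k)) :
    ‖sinMap k x - sinMap k y‖ ^ 2 ≤ 4 * k := by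
  rw [sinMap_sq]
  calc ∑ i, (Real.sin (x i) - Real.sin (y i)) ^ 2 ≤ ∑ _i : Fin k, (4 : ℝ) := by
        apply Finset.sum_le_sum
        intro i _
        have h1 := Real.abs_sin_le_one (x i)
        have h2 := Real.abs_sin_le_one (y i)
        rw [abs_le] at h1 h2
        nlinarith
    _ = 4 * k := by simp; ring

theorem coord_law (k : ℕ) (i : Fin k) :
    MeasurePreserving (fun x : EuclideanSpace ℝ (Fin k) => x i)
      (stdGaussian (EuclideanSpace ℝ (Fin k))) (gaussianReal 0 1) := by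
  have h := measurePreserving_eval_multivariateGaussian (μ := (0 : EuclideanSpace ℝ (Fin k)))
    (S := (1 : Matrix (Fin k) (Fin k) ℝ)) Matrix.PosSemidef.one (i := i)
  rw [multivariateGaussian_zero_one] at h
  simpa using h

theorem sinMap_moment (k : ℕ) :
    ∫ z : EuclideanSpace ℝ (Fin k) × EuclideanSpace ℝ (Fin k), ‖sinMap k z.1 - sinMap k z.2‖ ^ 2
      ∂((stdGaussian (EuclideanSpace ℝ (Fin k))).prod (stdGaussian (EuclideanSpace ℝ (Fin k))))
      = k * (1 - Real.exp (-2)) := by
  simp_rw [sinMap_sq]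
  have hc : ∀ i : Fin k, Continuous (fun z : EuclideanSpace ℝ (Fin k) × EuclideanSpace ℝ (Fin k) =>
      (Real.sin (z.1 i) - Real.sin (z.2 i)) ^ 2) := by
    intro i; fun_prop
  rw [integral_finsetSum]
  · have : ∀ i : Fin k, ∫ z : EuclideanSpace ℝ (Fin k) × EuclideanSpace ℝ (Fin k),
        (Real.sin (z.1 i) - Real.sin (z.2 i)) ^ 2
        ∂((stdGaussian (EuclideanSpace ℝ (Fin k))).prod (stdGaussian (EuclideanSpace ℝ (Fin k))))
        = 1 - Real.exp (-2) := by
      intro i
      have hm := (coord_law k i).prod (coord_law k i)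
      rw [← sin_moment, ← hm.map_eq, integral_map hm.measurable.aemeasurable
        (Continuous.aestronglyMeasurable (by fun_prop))]
      rfl
    rw [Finset.sum_congr rfl (fun i _ => this i)]
    simp
    ring
  · intro i _
    refine Integrable.of_bound (C := 4) (hc i).aestronglyMeasurable
      (Filter.Eventually.of_forall fun z => ?_)
    rw [Real.norm_eq_abs, abs_of_nonneg (sq_nonneg _)]
    have h1 := Real.abs_sin_le_one (z.1 i)
    have h2 := Real.abs_sin_le_one (z.2 i)
    rw [abs_le] at h1 h2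
    nlinarith

end Vale.Agent.P249
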