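import Mathlib
import Vale.Agent.P249.Low.SinMoment
import Vale.Agent.P249.Low.GaussMoment

open MeasureTheory ProbabilityTheory
open scoped NNReal

namespace Vale.Agent.P249

/-- The constant of the lower bound. -/
noncomputable def lowA (P : ℝ) : ℝ :=
  2 ^ (P - 1) * ((Real.pi / 2) ^ P * (∫ t, |t| ^ P ∂(gaussianReal 0 1)) + 2 ^ P)

theorem lowA_pos (P : ℝ) : 0 < lowA P := by
  unfold lowA
  have h1 : 0 ≤ ∫ t, |t| ^ P ∂(gaussianReal 0 1) :=
    integral_nonneg (fun t => Real.rpow_nonneg (abs_nonneg t) P)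
  have h2 : (0:ℝ) < 2 ^ P := Real.rpow_pos_of_pos (by norm_num) P
  have h3 : (0:ℝ) < 2 ^ (P - 1) := Real.rpow_pos_of_pos (by norm_num) _
  have h4 : (0:ℝ) ≤ (Real.pi / 2) ^ P := Real.rpow_nonneg (by positivity) P
  positivity

theorem pow_sub_two_le {a : ℝ} (ha : 0 ≤ a) : a ^ 2 / 2 - 4 ≤ (max (a - 2) 0) ^ 2 := by
  rcases le_total 2 a with h | h
  · rw [max_eq_left (by linarith)]; nlinarith [sq_nonneg (a - 4)]
  · have : 0 ≤ (max (a - 2) 0) ^ 2 := sq_nonneg _
    nlinarith

theorem low_add_rpow {a b P : ℝ} (ha : 0 ≤ a) (hb : 0 ≤ b) (hP : 1 ≤ P) :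
    (a + b) ^ P ≤ 2 ^ (P - 1) * (a ^ P + b ^ P) := by
  lift a to ℝ≥0 using ha
  lift b to ℝ≥0 using hb
  exact_mod_cast NNReal.rpow_add_le_mul_rpow_add_rpow a b hP

theorem low_core (k d : ℕ) (P : ℝ) (D : ℝ≥0) (hP : 2 ≤ P) (hk : 32 ≤ k)
    (Z : Set (EuclideanSpace ℝ (Fin k)))
    (hZ : ∀ u : EuclideanSpace ℝ (Fin k), (∀ i, |u i| ≤ 1) → ∃ z ∈ Z, ‖u - z‖ ≤ 1)
    (f : EuclideanSpace ℝ (Fin k) → Fin d → ℝ)
    (hlow : ∀ z ∈ Z, ∀ z' ∈ Z, ‖z - z'‖ ^ P ≤ ∑ j, |f z j - f z' j| ^ P)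
    (hLip : ∀ j, ∀ z ∈ Z, ∀ z' ∈ Z, |f z j - f z' j| ≤ D * ‖z - z'‖) :
    ((k : ℝ) / 8) ^ (P / 2) ≤ d * ((D : ℝ) ^ P * lowA P) := by
  set γ := stdGaussian (EuclideanSpace ℝ (Fin k)) with hγ
  have hP0 : 0 < P := by linarith
  -- extensions
  have hext : ∀ j, ∃ g : EuclideanSpace ℝ (Fin k) → ℝ, LipschitzWith D g ∧
      Set.EqOn (fun z => f z j) g Z := by
    intro j
    apply LipschitzOnWith.extend_real
    apply LipschitzOnWith.of_dist_le_mul
    intro x hx y hy
    rw [Real.dist_eq, dist_eq_norm]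
    exact hLip j x hx y hy
  choose g hg hgf using hext
  -- composed with the sine map
  have hG : ∀ j, LipschitzWith D (fun x => g j (sinMap k x)) := by
    intro j
    apply LipschitzWith.of_dist_le_mul
    intro x y
    refine ((hg j).dist_le_mul _ _).trans ?_
    apply mul_le_mul_of_nonneg_left _ D.coe_nonneg
    rw [dist_eq_norm, dist_eq_norm]
    exact sinMap_lip k x y
  -- pointwise inequality
  have hpt : ∀ z : EuclideanSpace ℝ (Fin k) × EuclideanSpace ℝ (Fin k),
      (max (‖sinMap k z.1 - sinMap k z.2‖ - 2) 0) ^ P ≤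
        ∑ j, (2 ^ (P - 1) * (|g j (sinMap k z.1) - g j (sinMap k z.2)| ^ P + (2 * (D:ℝ)) ^ P)) := by
    intro z
    obtain ⟨a, ha, ha1⟩ := hZ (sinMap k z.1) (fun i => Real.abs_sin_le_one _)
    obtain ⟨b, hb, hb1⟩ := hZ (sinMap k z.2) (fun i => Real.abs_sin_le_one _)
    have h1 : max (‖sinMap k z.1 - sinMap k z.2‖ - 2) 0 ≤ ‖a - b‖ := by
      apply max_le _ (norm_nonneg _)
      have : sinMap k z.1 - sinMap k z.2 = (sinMap k z.1 - a) + (a - b) - (sinMap k z.2 - b) := by
        abel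
      have h2 := norm_sub_le ((sinMap k z.1 - a) + (a - b)) (sinMap k z.2 - b)
      have h3 := norm_add_le (sinMap k z.1 - a) (a - b)
      rw [← this] at h2
      linarith
    refine (Real.rpow_le_rpow (le_max_right _ _) h1 hP0.le).trans
      ((hlow a ha b hb).trans (Finset.sum_le_sum fun j _ => ?_))
    have e1 : f a j = g j a := hgf j ha
    have e2 : f b j = g j b := hgf j hb
    have h4 : |g j a - g j (sinMap k z.1)| ≤ D := by
      have := (hg j).dist_le_mul a (sinMap k z.1)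
      rw [Real.dist_eq, dist_eq_norm, norm_sub_rev] at this
      refine this.trans ?_
      have := mul_le_mul_of_nonneg_left ha1 D.coe_nonneg
      simpa using this
    have h5 : |g j (sinMap k z.2) - g j b| ≤ D := by
      have := (hg j).dist_le_mul (sinMap k z.2) b
      rw [Real.dist_eq, dist_eq_norm] at this
      refine this.trans ?_
      have := mul_le_mul_of_nonneg_left hb1 D.coe_nonneg
      simpa using this
    have h6 : |f a j - f b j| ≤ |g j (sinMap k z.1) - g j (sinMap k z.2)| + 2 * D := by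
      rw [e1, e2]
      have : g j a - g j b = (g j a - g j (sinMap k z.1)) +
        (g j (sinMap k z.1) - g j (sinMap k z.2)) + (g j (sinMap k z.2) - g j b) := by ring
      rw [this]
      have h7 := abs_add_le ((g j a - g j (sinMap k z.1)) +
        (g j (sinMap k z.1) - g j (sinMap k z.2))) (g j (sinMap k z.2) - g j b)
      have h8 := abs_add_le (g j a - g j (sinMap k z.1)) (g j (sinMap k z.1) - g j (sinMap k z.2))
      linarith
    refine (Real.rpow_le_rpow (abs_nonneg _) h6 hP0.le).trans ?_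
    exact low_add_rpow (abs_nonneg _) (by positivity) (by linarith)
  -- integrate
  have hint : ∀ j, Integrable (fun z : EuclideanSpace ℝ (Fin k) × EuclideanSpace ℝ (Fin k) =>
      |g j (sinMap k z.1) - g j (sinMap k z.2)| ^ P) (γ.prod γ) ∧
      ∫ z : EuclideanSpace ℝ (Fin k) × EuclideanSpace ℝ (Fin k),
        |g j (sinMap k z.1) - g j (sinMap k z.2)| ^ P ∂(γ.prod γ) ≤
        (Real.pi / 2 * D) ^ P * ∫ t, |t| ^ P ∂(gaussianReal 0 1) := fun j =>
    gauss_moment k P (by linarith) D _ (hG j)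
  have hcont1 : Continuous (fun z : EuclideanSpace ℝ (Fin k) × EuclideanSpace ℝ (Fin k) =>
      ‖sinMap k z.1 - sinMap k z.2‖) :=
    (((sinMap_cont k).comp continuous_fst).sub ((sinMap_cont k).comp continuous_snd)).norm
  have hcont2 : Continuous (fun z : EuclideanSpace ℝ (Fin k) × EuclideanSpace ℝ (Fin k) =>
      max (‖sinMap k z.1 - sinMap k z.2‖ - 2) 0) :=
    (hcont1.sub continuous_const).max continuous_const
  have hb1 : ∀ z : EuclideanSpace ℝ (Fin k) × EuclideanSpace ℝ (Fin k),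
      ‖sinMap k z.1 - sinMap k z.2‖ ≤ 2 * k := by
    intro z
    have h := sinMap_sq_le k z.1 z.2
    have hk1 : (32:ℝ) ≤ k := by exact_mod_cast hk
    apply abs_le_of_sq_le_sq' _ (by positivity) |>.2
    nlinarith
  have hb2 : ∀ z : EuclideanSpace ℝ (Fin k) × EuclideanSpace ℝ (Fin k),
      max (‖sinMap k z.1 - sinMap k z.2‖ - 2) 0 ≤ 2 * k := by
    intro z
    apply max_le _ (by positivity)
    linarith [hb1 z]
  have hI1 : Integrable (fun z : EuclideanSpace ℝ (Fin k) × EuclideanSpace ℝ (Fin k) =>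
      (max (‖sinMap k z.1 - sinMap k z.2‖ - 2) 0) ^ P) (γ.prod γ) := by
    refine Integrable.of_bound (C := (2 * k : ℝ) ^ P)
      (hcont2.rpow_const (fun _ => Or.inr hP0.le)).aestronglyMeasurable
      (Filter.Eventually.of_forall fun z => ?_)
    rw [Real.norm_eq_abs, abs_of_nonneg (Real.rpow_nonneg (le_max_right _ _) _)]
    exact Real.rpow_le_rpow (le_max_right _ _) (hb2 z) hP0.le
  have hI2 : Integrable (fun z : EuclideanSpace ℝ (Fin k) × EuclideanSpace ℝ (Fin k) =>
      (max (‖sinMap k z.1 - sinMap k z.2‖ - 2) 0) ^ 2) (γ.prod γ) := by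
    refine Integrable.of_bound (C := (2 * k : ℝ) ^ 2)
      (hcont2.pow 2).aestronglyMeasurable
      (Filter.Eventually.of_forall fun z => ?_)
    rw [Real.norm_eq_abs, abs_of_nonneg (sq_nonneg _)]
    exact pow_le_pow_left₀ (le_max_right _ _) (hb2 z) 2
  have hI3 : Integrable (fun z : EuclideanSpace ℝ (Fin k) × EuclideanSpace ℝ (Fin k) =>
      ‖sinMap k z.1 - sinMap k z.2‖ ^ 2 / 2 - 4) (γ.prod γ) := by
    refine Integrable.sub (Integrable.div_const ?_ 2) (integrable_const 4)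
    refine Integrable.of_bound (C := (2 * k : ℝ) ^ 2)
      (hcont1.pow 2).aestronglyMeasurable
      (Filter.Eventually.of_forall fun z => ?_)
    rw [Real.norm_eq_abs, abs_of_nonneg (sq_nonneg _)]
    exact pow_le_pow_left₀ (norm_nonneg _) (hb1 z) 2
  have hI4 : Integrable (fun z : EuclideanSpace ℝ (Fin k) × EuclideanSpace ℝ (Fin k) =>
      ‖sinMap k z.1 - sinMap k z.2‖ ^ 2) (γ.prod γ) := by
    refine Integrable.of_bound (C := (2 * k : ℝ) ^ 2)
      (hcont1.pow 2).aestronglyMeasurable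
      (Filter.Eventually.of_forall fun z => ?_)
    rw [Real.norm_eq_abs, abs_of_nonneg (sq_nonneg _)]
    exact pow_le_pow_left₀ (norm_nonneg _) (hb1 z) 2
  -- lower bound for the second moment
  have hL1 : (k : ℝ) / 8 ≤
      ∫ z : EuclideanSpace ℝ (Fin k) × EuclideanSpace ℝ (Fin k),
        (max (‖sinMap k z.1 - sinMap k z.2‖ - 2) 0) ^ 2 ∂(γ.prod γ) := by
    have h1 : ∫ z : EuclideanSpace ℝ (Fin k) × EuclideanSpace ℝ (Fin k),
        (‖sinMap k z.1 - sinMap k z.2‖ ^ 2 / 2 - 4) ∂(γ.prod γ) =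
        k * (1 - Real.exp (-2)) / 2 - 4 := by
      rw [integral_sub (hI4.div_const 2) (integrable_const 4), integral_div, sinMap_moment]
      simp
    have h2 := integral_mono hI3 hI2 (fun z => pow_sub_two_le (norm_nonneg _))
    rw [h1] at h2
    refine le_trans ?_ h2
    have h3 : Real.exp (-2) ≤ 1 / 2 := by
      rw [Real.exp_neg, inv_eq_one_div]
      apply one_div_le_one_div_of_le (by norm_num)
      have := Real.add_one_le_exp (2:ℝ)
      linarith
    have hk1 : (32:ℝ) ≤ k := by exact_mod_cast hk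
    nlinarith
  -- Jensen
  have hJ : (∫ z : EuclideanSpace ℝ (Fin k) × EuclideanSpace ℝ (Fin k),
        (max (‖sinMap k z.1 - sinMap k z.2‖ - 2) 0) ^ 2 ∂(γ.prod γ)) ^ (P / 2) ≤
      ∫ z : EuclideanSpace ℝ (Fin k) × EuclideanSpace ℝ (Fin k),
        (max (‖sinMap k z.1 - sinMap k z.2‖ - 2) 0) ^ P ∂(γ.prod γ) := by
    have hpow : ∀ z : EuclideanSpace ℝ (Fin k) × EuclideanSpace ℝ (Fin k),
        ((max (‖sinMap k z.1 - sinMap k z.2‖ - 2) 0) ^ 2) ^ (P / 2) =
        (max (‖sinMap k z.1 - sinMap k z.2‖ - 2) 0) ^ P := by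
      intro z
      rw [← Real.rpow_natCast, ← Real.rpow_mul (le_max_right _ _)]
      congr 1
      push_cast
      ring
    have := (convexOn_rpow (p := P / 2) (by linarith)).map_integral_le
      (μ := γ.prod γ) (f := fun z : EuclideanSpace ℝ (Fin k) × EuclideanSpace ℝ (Fin k) =>
        (max (‖sinMap k z.1 - sinMap k z.2‖ - 2) 0) ^ 2)
      (Continuous.continuousOn (Real.continuous_rpow_const (by linarith)))
      isClosed_Ici (Filter.Eventually.of_forall fun z => Set.mem_Ici.2 (sq_nonneg _)) hI2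
      (by
        refine hI1.congr (Filter.Eventually.of_forall fun z => ?_)
        exact (hpow z).symm)
    refine this.trans (le_of_eq ?_)
    exact integral_congr_ae (Filter.Eventually.of_forall hpow)
  -- upper bound
  have hU : ∫ z : EuclideanSpace ℝ (Fin k) × EuclideanSpace ℝ (Fin k),
        (max (‖sinMap k z.1 - sinMap k z.2‖ - 2) 0) ^ P ∂(γ.prod γ) ≤
      d * ((D : ℝ) ^ P * lowA P) := by
    have hI5 : ∀ j, Integrable (fun z : EuclideanSpace ℝ (Fin k) × EuclideanSpace ℝ (Fin k) =>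
        2 ^ (P - 1) * (|g j (sinMap k z.1) - g j (sinMap k z.2)| ^ P + (2 * (D:ℝ)) ^ P))
        (γ.prod γ) := fun j =>
      ((hint j).1.add (integrable_const _)).const_mul _
    refine (integral_mono hI1 (integrable_finsetSum _ fun j _ => hI5 j) hpt).trans ?_
    rw [integral_finsetSum _ (fun j _ => hI5 j)]
    have hj : ∀ j, ∫ z : EuclideanSpace ℝ (Fin k) × EuclideanSpace ℝ (Fin k),
        2 ^ (P - 1) * (|g j (sinMap k z.1) - g j (sinMap k z.2)| ^ P + (2 * (D:ℝ)) ^ P)
        ∂(γ.prod γ) ≤ (D : ℝ) ^ P * lowA P := by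
      intro j
      rw [integral_const_mul, integral_add (hint j).1 (integrable_const _)]
      simp only [integral_const, smul_eq_mul, probReal_univ, one_mul]
      have h1 := (hint j).2
      rw [Real.mul_rpow (by positivity) D.coe_nonneg] at h1
      rw [Real.mul_rpow (by norm_num) D.coe_nonneg]
      unfold lowA
      have h3 : (0:ℝ) < 2 ^ (P - 1) := Real.rpow_pos_of_pos (by norm_num) _
      calc 2 ^ (P - 1) * (∫ z : EuclideanSpace ℝ (Fin k) × EuclideanSpace ℝ (Fin k),
          |g j (sinMap k z.1) - g j (sinMap k z.2)| ^ P ∂(γ.prod γ) + 2 ^ P * (D:ℝ) ^ P)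
          ≤ 2 ^ (P - 1) * ((Real.pi / 2) ^ P * (D:ℝ) ^ P * (∫ t, |t| ^ P ∂(gaussianReal 0 1)) +
            2 ^ P * (D:ℝ) ^ P) := by
            apply mul_le_mul_of_nonneg_left _ h3.le
            linarith
        _ = _ := by ring
    calc ∑ j : Fin d, _ ≤ ∑ _j : Fin d, ((D : ℝ) ^ P * lowA P) :=
          Finset.sum_le_sum (fun j _ => hj j)
      _ = d * ((D : ℝ) ^ P * lowA P) := by simp
  calc ((k : ℝ) / 8) ^ (P / 2) ≤ _ := Real.rpow_le_rpow (by positivity) hL1 (by linarith)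
    _ ≤ _ := hJ
    _ ≤ _ := hU

end Vale.Agent.P249
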