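import Mathlib
import Vale.Agent.P249.Low.GaussAux

open MeasureTheory ProbabilityTheory
open scoped ENNReal NNReal

namespace Vale.Agent.P249

universe u

/-- Euclidean space embeds (up to one scaling factor `κ`) isometrically into an `L_p(μ)` in any
universe. -/
theorem lp_embed (p : ℝ≥0∞) [Fact (1 ≤ p)] (hp : p ≠ ∞) (k : ℕ) :
    ∃ (α : Type u) (_ : MeasurableSpace α) (μ : Measure α)
      (φ : EuclideanSpace ℝ (Fin k) → Lp ℝ p μ) (κ : ℝ), 0 < κ ∧
      ∀ x y, ‖φ x - φ y‖ = κ * ‖x - y‖ := by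
  have hp1 : (1 : ℝ≥0∞) ≤ p := Fact.out
  have hp0 : p ≠ 0 := fun h => by simp [h] at hp1
  have hP : 0 < p.toReal := ENNReal.toReal_pos hp0 hp
  let E := EuclideanSpace ℝ (Fin k)
  let γ : Measure E := stdGaussian E
  let e : E ≃ᵐ ULift.{u} E := MeasurableEquiv.ulift.symm
  let μ : Measure (ULift.{u} E) := γ.map e
  have hmp : MeasurePreserving e γ μ := ⟨e.measurable, rfl⟩
  have hmp' : MeasurePreserving e.symm μ γ := hmp.symm e
  let f : E → ULift.{u} E → ℝ := fun x a => (innerSL ℝ x) (e.symm a)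
  have hLp : ∀ A : StrongDual ℝ E, MemLp (fun a => A (e.symm a)) p μ := by
    intro A
    exact (IsGaussian.memLp_dual γ A p hp).comp_measurePreserving hmp'
  let φ : E → Lp ℝ p μ := fun x => (hLp (innerSL ℝ x)).toLp (f x)
  set M := ∫⁻ t, ‖t‖ₑ ^ p.toReal ∂(gaussianReal 0 1) with hM
  have hMtop : M ≠ ∞ := by
    have h1 := (IsGaussian.memLp_id (gaussianReal 0 1) p hp).eLpNorm_lt_top
    rw [eLpNorm_lt_top_iff_lintegral_rpow_enorm_lt_top hp0 hp] at h1
    exact h1.ne
  have hM0 : M ≠ 0 := by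
    intro h0
    rw [hM, lintegral_eq_zero_iff (by fun_prop)] at h0
    have h1 : ∀ᵐ t ∂(gaussianReal 0 1), t = 0 := by
      filter_upwards [h0] with t ht
      simp only [Pi.zero_apply, ENNReal.rpow_eq_zero_iff, enorm_eq_zero, enorm_ne_top,
        false_and, or_false] at ht
      exact ht.1
    have h2 : ∀ᵐ t ∂(volume : Measure ℝ), t = 0 :=
      (gaussianReal_absolutelyContinuous' 0 one_ne_zero).ae_le h1
    rw [ae_iff] at h2
    have h3 : (volume : Measure ℝ) {t | ¬ t = 0} = ∞ := by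
      have : {t : ℝ | ¬ t = 0} = {0}ᶜ := by ext; simp
      rw [this, measure_compl (measurableSet_singleton _) (by simp)]
      simp
    rw [h3] at h2
    exact ENNReal.top_ne_zero h2
  refine ⟨ULift.{u} E, inferInstance, μ, φ, (M ^ (1 / p.toReal)).toReal, ?_, ?_⟩
  · apply ENNReal.toReal_pos
    · simp [hM0, hMtop]
    · exact ENNReal.rpow_ne_top_of_nonneg (by positivity) hMtop
  · intro x y
    have h1 : φ x - φ y = (hLp (innerSL ℝ (x - y))).toLp (f (x - y)) := by
      simp only [φ]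
      rw [← MemLp.toLp_sub]
      congr 1
      ext a
      simp only [f, Pi.sub_apply, map_sub, sub_apply]
    rw [h1, Lp.norm_toLp, eLpNorm_eq_lintegral_rpow_enorm_toReal hp0 hp]
    have h2 : ∫⁻ a, ‖f (x - y) a‖ₑ ^ p.toReal ∂μ = ‖x - y‖ₑ ^ p.toReal * M := by
      have h3 : ∫⁻ a, ‖f (x - y) a‖ₑ ^ p.toReal ∂μ =
          ∫⁻ z, ‖(innerSL ℝ (x - y)) z‖ₑ ^ p.toReal ∂γ := by
        rw [← hmp'.map_eq, lintegral_map (by fun_prop) e.symm.measurable]
      rw [h3, lintegral_dual k p.toReal hP.le]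
      congr 2
      rw [← ofReal_norm, ← ofReal_norm, innerSL_apply_norm]
    rw [h2, ENNReal.mul_rpow_of_nonneg _ _ (by positivity), ← ENNReal.rpow_mul,
      mul_one_div_cancel hP.ne', ENNReal.rpow_one, ENNReal.toReal_mul, toReal_enorm, mul_comm]

end Vale.Agent.P249
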