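import Mathlib
import Vale.Agent.P249.Defs
import Vale.Agent.P249.StageA
import Vale.Agent.P249.Low.Core
import Vale.Agent.P249.Low.Embed

open MeasureTheory ProbabilityTheory
open scoped NNReal ENNReal

namespace Vale.Agent.P249

universe u

theorem grid_net (k : ℕ) (hk : 1 ≤ k) :
    ∃ Z : Finset (EuclideanSpace ℝ (Fin k)), Z.card ≤ (2 * k + 1) ^ k ∧
      ∀ u : EuclideanSpace ℝ (Fin k), (∀ i, |u i| ≤ 1) → ∃ z ∈ Z, ‖u - z‖ ≤ 1 := by
  classical
  have hk1 : (1:ℝ) ≤ k := by exact_mod_cast hk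
  have hk0 : (0:ℝ) < k := by linarith
  refine ⟨Finset.univ.image (fun j : Fin k → Fin (2 * k + 1) =>
    (WithLp.toLp 2 (fun i => (((j i : ℕ) : ℝ) - k) / k) : EuclideanSpace ℝ (Fin k))), ?_, ?_⟩
  · refine Finset.card_image_le.trans ?_
    simp
  · intro u hu
    have hfl : ∀ i, ⌊(u i + 1) * k⌋₊ < 2 * k + 1 := by
      intro i
      have h1 := (abs_le.1 (hu i))
      have h2 : (u i + 1) * k ≤ 2 * k := mul_le_mul_of_nonneg_right (by linarith) hk0.le
      have h3 : (⌊(u i + 1) * k⌋₊ : ℝ) ≤ (u i + 1) * k :=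
        Nat.floor_le (mul_nonneg (by linarith) hk0.le)
      have h4 : (⌊(u i + 1) * k⌋₊ : ℝ) ≤ ((2 * k : ℕ) : ℝ) := by push_cast; linarith
      have h5 : ⌊(u i + 1) * k⌋₊ ≤ 2 * k := by exact_mod_cast h4
      omega
    refine ⟨_, Finset.mem_image_of_mem _ (Finset.mem_univ (fun i => ⟨⌊(u i + 1) * k⌋₊, hfl i⟩)), ?_⟩
    rw [EuclideanSpace.norm_eq]
    rw [Real.sqrt_le_one]
    have hi : ∀ i : Fin k, ‖(u - (WithLp.toLp 2 (fun i => (((⌊(u i + 1) * k⌋₊ : ℕ) : ℝ) - k) / k) :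
        EuclideanSpace ℝ (Fin k))) i‖ ^ 2 ≤ 1 / k := by
      intro i
      simp only [PiLp.sub_apply, Real.norm_eq_abs, sq_abs]
      have h1 := (abs_le.1 (hu i))
      have h3 : (⌊(u i + 1) * k⌋₊ : ℝ) ≤ (u i + 1) * k :=
        Nat.floor_le (mul_nonneg (by linarith) hk0.le)
      have h6 : (u i + 1) * k < ⌊(u i + 1) * k⌋₊ + 1 := Nat.lt_floor_add_one _
      have e : u i - ((⌊(u i + 1) * k⌋₊ : ℝ) - k) / k = ((u i + 1) * k - ⌊(u i + 1) * k⌋₊) / k := by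
        field_simp
        ring
      rw [e, div_pow, div_le_div_iff₀ (by positivity) hk0]
      have h7 : ((u i + 1) * k - ⌊(u i + 1) * k⌋₊) ^ 2 ≤ 1 := by
        have h8 : 0 ≤ (u i + 1) * k - ⌊(u i + 1) * k⌋₊ := by linarith
        have h9 : (u i + 1) * k - ⌊(u i + 1) * k⌋₊ ≤ 1 := by linarith
        nlinarith
      nlinarith
    refine (Finset.sum_le_sum fun i _ => hi i).trans ?_
    simp [hk0.ne']

theorem low_suffices (p : ℝ≥0∞) [Fact (1 ≤ p)] (hp : p ≠ ∞) (hp2 : 2 ≤ p.toReal) (k n d : ℕ)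
    (hk : 32 ≤ k) (hn : (2 * k + 1) ^ k ≤ n) (D : ℝ) (hD : 1 ≤ D) (h : Suffices.{u} p n D d) :
    ((k : ℝ) / 8) ^ (p.toReal / 2) ≤ d * (D ^ p.toReal * lowA p.toReal) := by
  classical
  set P := p.toReal with hPd
  have hP0 : 0 < P := by linarith
  have hD0 : 0 ≤ D := by linarith
  lift D to ℝ≥0 using hD0
  obtain ⟨α, mα, μ, φ, κ, hκ, hφ⟩ := lp_embed.{u} p hp k
  obtain ⟨Z, hZc, hZ⟩ := grid_net k (by omega)
  have hφinj : Function.Injective φ := by
    intro x y hxy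
    have h1 := hφ x y
    rw [hxy, sub_self, norm_zero] at h1
    have h2 : ‖x - y‖ = 0 := by
      rcases mul_eq_zero.1 h1.symm with h3 | h3
      · exact absurd h3 hκ.ne'
      · exact h3
    exact sub_eq_zero.1 (norm_eq_zero.1 h2)
  have hinf : Infinite (Lp ℝ p μ) := by
    have hk0 : 0 < k := by omega
    apply Infinite.of_injective
      (fun t : ℝ => φ (EuclideanSpace.single (⟨0, hk0⟩ : Fin k) t))
    intro a b hab
    have h1 := hφinj hab
    have h2 := congrArg (fun v : EuclideanSpace ℝ (Fin k) => v ⟨0, hk0⟩) h1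
    simpa using h2
  obtain ⟨X, hX1, hX2⟩ := Infinite.exists_superset_card_eq (Z.image φ) n
    (Finset.card_image_le.trans (hZc.trans hn))
  obtain ⟨F, s, hs, hF⟩ := h α mα μ X hX2
  have hmem : ∀ z ∈ Z, φ z ∈ X := fun z hz => hX1 (Finset.mem_image_of_mem φ hz)
  let f : EuclideanSpace ℝ (Fin k) → Fin d → ℝ := fun z j =>
    if h : φ z ∈ X then (F ⟨φ z, h⟩) j / (s * κ) else 0
  have hsκ : 0 < s * κ := mul_pos hs hκ
  have hf : ∀ z ∈ Z, ∀ z' ∈ Z, ∃ v : PiLp p (fun _ : Fin d => ℝ),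
      (s * κ) * ‖z - z'‖ ≤ ‖v‖ ∧ ‖v‖ ≤ D * (s * κ) * ‖z - z'‖ ∧
      ∀ j, |f z j - f z' j| = |v j| / (s * κ) := by
    intro z hz z' hz'
    refine ⟨F ⟨φ z, hmem z hz⟩ - F ⟨φ z', hmem z' hz'⟩, ?_, ?_, ?_⟩
    · have h1 := (hF ⟨φ z, hmem z hz⟩ ⟨φ z', hmem z' hz'⟩).1
      simp only [hφ] at h1
      linarith
    · have h1 := (hF ⟨φ z, hmem z hz⟩ ⟨φ z', hmem z' hz'⟩).2
      simp only [hφ] at h1
      linarith
    · intro j
      simp only [f, hmem z hz, hmem z' hz', dif_pos, PiLp.sub_apply]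
      rw [← sub_div, abs_div, abs_of_pos hsκ]
  exact low_core k d P D hp2 hk (Z : Set (EuclideanSpace ℝ (Fin k)))
    (fun u hu => by
      obtain ⟨z, hz, hz1⟩ := hZ u hu
      exact ⟨z, by exact_mod_cast hz, hz1⟩) f
    (by
      intro z hz z' hz'
      obtain ⟨v, hv1, -, hv3⟩ := hf z (by exact_mod_cast hz) z' (by exact_mod_cast hz')
      have h1 : ((s * κ) * ‖z - z'‖) ^ P ≤ ‖v‖ ^ P :=
        Real.rpow_le_rpow (by positivity) hv1 hP0.le
      rw [pilp_rpow hp v] at h1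
      rw [Real.mul_rpow hsκ.le (norm_nonneg _)] at h1
      have h2 : ∑ j, |f z j - f z' j| ^ P = (∑ j, |v j| ^ P) / (s * κ) ^ P := by
        rw [Finset.sum_div]
        refine Finset.sum_congr rfl fun j _ => ?_
        rw [hv3 j, Real.div_rpow (abs_nonneg _) hsκ.le]
      rw [h2, le_div_iff₀ (Real.rpow_pos_of_pos hsκ P)]
      linarith)
    (by
      intro j z hz z' hz'
      obtain ⟨v, -, hv2, hv3⟩ := hf z (by exact_mod_cast hz) z' (by exact_mod_cast hz')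
      rw [hv3 j, div_le_iff₀ hsκ]
      have h1 := PiLp.norm_apply_le v j
      rw [Real.norm_eq_abs] at h1
      have h2 : |v j| ≤ D * (s * κ) * ‖z - z'‖ := h1.trans hv2
      refine h2.trans (le_of_eq ?_)
      ring)

end Vale.Agent.P249
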