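import Mathlib
import Vale.Agent.P249.Low.Net

open MeasureTheory ProbabilityTheory
open scoped NNReal ENNReal

namespace Vale.Agent.P249

universe u

theorem low_params : ∃ n₀ : ℕ, ∀ n : ℕ, n₀ ≤ n → ∃ k : ℕ, 32 ≤ k ∧ (2 * k + 1) ^ k ≤ n ∧
    0 ≤ Real.log n / Real.log (Real.log n) ∧
    Real.log n / Real.log (Real.log n) / 4 ≤ k := by
  have t1 : Filter.Tendsto (fun n : ℕ => Real.log n) Filter.atTop Filter.atTop :=
    Real.tendsto_log_atTop.comp tendsto_natCast_atTop_atTop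
  have t2 : Filter.Tendsto (fun x : ℝ => Real.log x) Filter.atTop Filter.atTop :=
    Real.tendsto_log_atTop
  have e1 : ∀ᶠ x : ℝ in Filter.atTop, 128 * Real.log x ≤ x := by
    have h := Real.isLittleO_log_id_atTop.bound (show (0:ℝ) < 1 / 128 by norm_num)
    filter_upwards [h, Filter.eventually_ge_atTop (1:ℝ)] with x hx hx1
    simp only [id_eq, Real.norm_eq_abs] at hx
    rw [abs_of_nonneg (Real.log_nonneg hx1), abs_of_nonneg (by linarith)] at hx
    linarith
  have e2 : ∀ᶠ x : ℝ in Filter.atTop, 2 ≤ Real.log x := t2.eventually_ge_atTop 2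
  have e3 := t1.eventually (e1.and (e2.and (Filter.eventually_ge_atTop (2:ℝ))))
  rw [Filter.eventually_atTop] at e3
  obtain ⟨n₀, hn₀⟩ := e3
  refine ⟨max n₀ 1, fun n hn => ?_⟩
  obtain ⟨h1, h2, h3⟩ := hn₀ n (le_trans (le_max_left _ _) hn)
  have hn1 : 1 ≤ n := le_trans (le_max_right _ _) hn
  set L := Real.log n with hL
  set M := Real.log L with hM
  have hM0 : 0 < M := by linarith
  have hL0 : 0 < L := by linarith
  have hq : 128 ≤ L / M := by rw [le_div_iff₀ hM0]; exact h1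
  have hfl1 : (⌊L / (2 * M)⌋₊ : ℝ) ≤ L / (2 * M) := Nat.floor_le (by positivity)
  have hfl2 : L / (2 * M) < ⌊L / (2 * M)⌋₊ + 1 := Nat.lt_floor_add_one _
  have hLM : L / (2 * M) = L / M / 2 := by field_simp
  obtain ⟨k, hk⟩ : ∃ k, k = ⌊L / (2 * M)⌋₊ := ⟨_, rfl⟩
  rw [← hk, hLM] at hfl1 hfl2
  refine ⟨k, ?_, ?_, by positivity, ?_⟩
  · have : (32:ℝ) ≤ k := by linarith
    exact_mod_cast this
  · have hk1 : ((2 * k + 1 : ℕ) : ℝ) ≤ L := by
      push_cast
      have : L / M ≤ L / 2 := by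
        apply div_le_div_of_nonneg_left hL0.le (by norm_num) h2
      linarith
    have hk2 : (((2 * k + 1) ^ k : ℕ) : ℝ) ≤ n := by
      push_cast
      push_cast at hk1
      calc (2 * (k : ℝ) + 1) ^ k ≤ L ^ k :=
            pow_le_pow_left₀ (by positivity) hk1 _
        _ = Real.exp (k * M) := by
            rw [Real.exp_nat_mul, hM, Real.exp_log hL0]
        _ ≤ Real.exp L := by
            apply Real.exp_le_exp.2
            calc (k : ℝ) * M ≤ L / M / 2 * M :=
                  mul_le_mul_of_nonneg_right hfl1 hM0.le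
              _ = L / 2 := by field_simp
              _ ≤ L := by linarith
        _ = n := by
            rw [hL, Real.exp_log]
            exact_mod_cast hn1
    exact_mod_cast hk2
  · linarith

theorem lower_bound (p : ℝ≥0∞) [Fact (1 ≤ p)] (hp : p ≠ ∞) (hp2 : 2 ≤ p.toReal) :
    ∃ c : ℝ, 0 < c ∧ ∃ n₀ : ℕ, ∀ n : ℕ, n₀ ≤ n → ∀ D : ℝ, 1 ≤ D → ∀ d : ℕ,
      Suffices.{u} p n D d →
        c * (Real.log n / Real.log (Real.log n)) ^ (p.toReal / 2) / D ^ p.toReal ≤ d := by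
  obtain ⟨n₀, hn₀⟩ := low_params
  set P := p.toReal with hP
  have hA := lowA_pos P
  refine ⟨(1 / 32) ^ (P / 2) / lowA P, by positivity, n₀, fun n hn D hD d hd => ?_⟩
  obtain ⟨k, hk, hkn, hq0, hq⟩ := hn₀ n hn
  have h := low_suffices.{u} p hp hp2 k n d hk hkn D hD hd
  have hD0 : 0 < D ^ P := Real.rpow_pos_of_pos (by linarith) P
  rw [div_le_iff₀ hD0]
  rw [div_mul_eq_mul_div, div_le_iff₀ hA]
  have h1 : (1 / 32 : ℝ) ^ (P / 2) * (Real.log n / Real.log (Real.log n)) ^ (P / 2) ≤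
      ((k : ℝ) / 8) ^ (P / 2) := by
    rw [← Real.mul_rpow (by norm_num) hq0]
    apply Real.rpow_le_rpow (by positivity) _ (by positivity)
    linarith
  calc (1 / 32 : ℝ) ^ (P / 2) * (Real.log n / Real.log (Real.log n)) ^ (P / 2) ≤ _ := h1
    _ ≤ _ := h
    _ = _ := by ring

end Vale.Agent.P249
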