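import Mathlib
import Vale.Agent.P249.Low.Main
import Vale.Agent.P249.Up.Assembly
import Vale.Agent.P249.Main

open MeasureTheory Filter
open scoped NNReal ENNReal Topology

namespace Vale.Agent.P249

universe u

theorem upper_dim (p : ℝ≥0∞) [Fact (1 ≤ p)] (hp : p ≠ ∞) (D : ℝ) (hD : 1 < D) :
    ∃ C : ℝ, 0 < C ∧ ∀ n : ℕ, 2 ≤ n →
      Suffices.{u} p n D (dimLp.{u} p n D) ∧
      (dimLp.{u} p n D : ℝ) ≤ C * n * Real.log n ^ (p.toReal + 1) := by
  obtain ⟨C, hC, h⟩ := upper_bound.{u} p hp D hD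
  refine ⟨C, hC, fun n hn => ?_⟩
  obtain ⟨d, hd1, hd2⟩ := h n hn
  obtain ⟨h1, h2⟩ := dimLp_spec.{u} p n d D hd2
  refine ⟨h1, le_trans ?_ hd1⟩
  exact_mod_cast h2

theorem lower_dim (p : ℝ≥0∞) [Fact (1 ≤ p)] (hp : p ≠ ∞) (hp2 : 2 ≤ p.toReal) :
    ∃ c : ℝ, 0 < c ∧ ∃ n₀ : ℕ, ∀ n : ℕ, n₀ ≤ n → ∀ D : ℝ, 1 < D →
      c * (Real.log n / Real.log (Real.log n)) ^ (p.toReal / 2) / D ^ p.toReal ≤
        dimLp.{u} p n D := by
  obtain ⟨c, hc, n₀, h⟩ := lower_bound.{u} p hp hp2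
  refine ⟨c, hc, max n₀ 2, fun n hn D hD => ?_⟩
  obtain ⟨C, hC, h2⟩ := upper_dim.{u} p hp D hD
  exact h n (le_trans (le_max_left _ _) hn) D hD.le _ (h2 n (le_trans (le_max_right _ _) hn)).1

theorem log_littleO (q : ℝ) (hq : 1 < q) :
    (fun n : ℕ => Real.log n) =o[atTop]
      (fun n : ℕ => (Real.log n / Real.log (Real.log n)) ^ q) := by
  have h1 : (fun x : ℝ => x) =o[atTop] (fun x : ℝ => (x / Real.log x) ^ q) := by
    have h2 := isLittleO_log_rpow_rpow_atTop q (show 0 < q - 1 by linarith)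
    have h3 : (fun x : ℝ => Real.log x ^ q * (x ^ 1 / Real.log x ^ q)) =o[atTop]
        (fun x : ℝ => x ^ (q - 1) * (x ^ 1 / Real.log x ^ q)) :=
      h2.mul_isBigO (Asymptotics.isBigO_refl _ _)
    refine h3.congr' ?_ ?_
    · filter_upwards [eventually_gt_atTop (1:ℝ)] with x hx
      have : 0 < Real.log x := Real.log_pos hx
      have : 0 < Real.log x ^ q := Real.rpow_pos_of_pos this q
      field_simp
    · filter_upwards [eventually_gt_atTop (1:ℝ)] with x hx
      have h4 : 0 < Real.log x := Real.log_pos hx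
      rw [Real.div_rpow (by linarith) h4.le, pow_one, Real.rpow_sub (by linarith), Real.rpow_one]
      have : 0 < Real.log x ^ q := Real.rpow_pos_of_pos h4 q
      have hx0 : 0 < x := by linarith
      field_simp
  have t1 : Tendsto (fun n : ℕ => Real.log n) atTop atTop :=
    Real.tendsto_log_atTop.comp tendsto_natCast_atTop_atTop
  exact h1.comp_tendsto t1

theorem lower_littleO (p : ℝ≥0∞) [Fact (1 ≤ p)] (hp : p ≠ ∞) (hp2 : 2 < p.toReal) (D : ℝ)
    (hD : 1 < D) :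
    (fun n : ℕ => Real.log n) =o[atTop] (fun n : ℕ => (dimLp.{u} p n D : ℝ)) := by
  obtain ⟨c, hc, n₀, h⟩ := lower_dim.{u} p hp hp2.le
  have hD0 : 0 < D ^ p.toReal := Real.rpow_pos_of_pos (by linarith) _
  refine (log_littleO (p.toReal / 2) (by linarith)).trans_isBigO ?_
  apply Asymptotics.IsBigO.of_bound (D ^ p.toReal / c)
  have t1 : Tendsto (fun n : ℕ => Real.log n) atTop atTop :=
    Real.tendsto_log_atTop.comp tendsto_natCast_atTop_atTop
  filter_upwards [eventually_ge_atTop n₀, t1.eventually_ge_atTop 1] with n hn hn1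
  have h1 := h n hn D hD
  have h2 : 0 ≤ Real.log n / Real.log (Real.log n) :=
    div_nonneg (by linarith) (Real.log_nonneg hn1)
  rw [Real.norm_of_nonneg (Real.rpow_nonneg h2 _), Real.norm_of_nonneg (Nat.cast_nonneg _)]
  rw [div_le_iff₀ hD0] at h1
  rw [div_mul_eq_mul_div, le_div_iff₀ hc]
  linarith

/-- more coordinates never hurt -/
theorem hasMap_mono (p : ℝ≥0∞) [Fact (1 ≤ p)] (hp : p ≠ ∞) {E : Type u} [NormedAddCommGroup E]
    (X : Finset E) (D : ℝ) {d d' : ℕ} (hd : d ≤ d') (h : HasMap p X d D) : HasMap p X d' D := by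
  obtain ⟨f, s, hs, hf⟩ := h
  have hP := one_le_toReal hp
  have hP0 : 0 < p.toReal := by linarith
  let g : X → PiLp p (fun _ : Fin d' => ℝ) := fun x =>
    WithLp.toLp p (fun i => if hi : (i : ℕ) < d then f x ⟨i, hi⟩ else 0)
  have hg : ∀ x y, ‖g x - g y‖ = ‖f x - f y‖ := by
    intro x y
    have h1 : ‖g x - g y‖ ^ p.toReal = ‖f x - f y‖ ^ p.toReal := by
      rw [pilp_rpow hp (g x - g y), pilp_rpow hp (f x - f y)]
      have h2 : ∀ i : Fin d', |(g x - g y) i| ^ p.toReal =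
          (if hi : (i : ℕ) < d then |(f x - f y) ⟨i, hi⟩| ^ p.toReal else 0) := by
        intro i
        by_cases hi : (i : ℕ) < d
        · simp only [g, PiLp.sub_apply, hi, dif_pos]
        · simp [g, hi, hP0.ne']
      rw [Finset.sum_congr rfl fun i _ => h2 i]
      symm
      refine Finset.sum_bij_ne_zero (fun i _ _ => Fin.castLE hd i) (fun _ _ _ => Finset.mem_univ _)
        (fun i _ _ j _ _ hij => Fin.castLE_injective hd hij) ?_ ?_
      · intro b _ hb
        by_cases hi : (b : ℕ) < d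
        · refine ⟨⟨b, hi⟩, Finset.mem_univ _, ?_, rfl⟩
          simpa [hi] using hb
        · simp [hi] at hb
      · intro i _ _
        have hi : ((Fin.castLE hd i : Fin d') : ℕ) < d := i.2
        rw [dif_pos hi]
        rfl
    exact (Real.rpow_left_inj (norm_nonneg _) (norm_nonneg _) hP0.ne').1 h1
  exact ⟨g, s, hs, fun x y => by rw [hg]; exact hf x y⟩

theorem suffices_mono (p : ℝ≥0∞) [Fact (1 ≤ p)] (hp : p ≠ ∞) (n : ℕ) (D : ℝ) {d d' : ℕ}
    (hd : d ≤ d') (h : Suffices.{u} p n D d) : Suffices.{u} p n D d' :=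
  fun α mα μ X hX => hasMap_mono p hp X D hd (h α mα μ X hX)

end Vale.Agent.P249
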