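import Mathlib
import Vale.Agent.P249.Low.Cor

open MeasureTheory ProbabilityTheory
open scoped NNReal ENNReal

namespace Vale.Agent.P249

universe u

theorem low_set (p : ℝ≥0∞) [Fact (1 ≤ p)] (hp : p ≠ ∞) (hp2 : 2 ≤ p.toReal) (k n : ℕ)
    (hk : 32 ≤ k) (hn : (2 * k + 1) ^ k ≤ n) :
    ∃ (α : Type u) (_ : MeasurableSpace α) (μ : Measure α) (X : Finset (Lp ℝ p μ)),
      X.card = n ∧ ∀ D : ℝ, 1 ≤ D → ∀ d : ℕ, HasMap p X d D →
    ((k : ℝ) / 8) ^ (p.toReal / 2) ≤ d * (D ^ p.toReal * lowA p.toReal) := by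
  classical
  set P := p.toReal with hPd
  have hP0 : 0 < P := by linarith
  obtain ⟨α, mα, μ, φ, κ, hκ, hφ⟩ := lp_embed.{u} p hp k
  obtain ⟨Z, hZc, hZ⟩ := grid_net k (by omega)
  have hφinj : Function.Injective φ := by
    intro x y hxy
    have h1 := hφ x y
    rw [hxy, sub_self, norm_zero] at h1
    have h2 : ‖x - y‖ = 0 := by
      rcases mul_eq_zero.1 h1.symm with h3 | h3
      · exact absurd h3 hκ.ne'
      · exact h3
    exact sub_eq_zero.1 (norm_eq_zero.1 h2)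
  have hinf : Infinite (Lp ℝ p μ) := by
    have hk0 : 0 < k := by omega
    apply Infinite.of_injective
      (fun t : ℝ => φ (EuclideanSpace.single (⟨0, hk0⟩ : Fin k) t))
    intro a b hab
    have h1 := hφinj hab
    have h2 := congrArg (fun v : EuclideanSpace ℝ (Fin k) => v ⟨0, hk0⟩) h1
    simpa using h2
  obtain ⟨X, hX1, hX2⟩ := Infinite.exists_superset_card_eq (Z.image φ) n
    (Finset.card_image_le.trans (hZc.trans hn))
  refine ⟨α, mα, μ, X, hX2, fun D hD d hmap => ?_⟩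
  have hD0 : 0 ≤ D := by linarith
  lift D to ℝ≥0 using hD0
  obtain ⟨F, s, hs, hF⟩ := hmap
  have hmem : ∀ z ∈ Z, φ z ∈ X := fun z hz => hX1 (Finset.mem_image_of_mem φ hz)
  let f : EuclideanSpace ℝ (Fin k) → Fin d → ℝ := fun z j =>
    if h : φ z ∈ X then (F ⟨φ z, h⟩) j / (s * κ) else 0
  have hsκ : 0 < s * κ := mul_pos hs hκ
  have hf : ∀ z ∈ Z, ∀ z' ∈ Z, ∃ v : PiLp p (fun _ : Fin d => ℝ),
      (s * κ) * ‖z - z'‖ ≤ ‖v‖ ∧ ‖v‖ ≤ D * (s * κ) * ‖z - z'‖ ∧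
      ∀ j, |f z j - f z' j| = |v j| / (s * κ) := by
    intro z hz z' hz'
    refine ⟨F ⟨φ z, hmem z hz⟩ - F ⟨φ z', hmem z' hz'⟩, ?_, ?_, ?_⟩
    · have h1 := (hF ⟨φ z, hmem z hz⟩ ⟨φ z', hmem z' hz'⟩).1
      simp only [hφ] at h1
      linarith
    · have h1 := (hF ⟨φ z, hmem z hz⟩ ⟨φ z', hmem z' hz'⟩).2
      simp only [hφ] at h1
      linarith
    · intro j
      simp only [f, hmem z hz, hmem z' hz', dif_pos, PiLp.sub_apply]
      rw [← sub_div, abs_div, abs_of_pos hsκ]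
  exact low_core k d P D hp2 hk (Z : Set (EuclideanSpace ℝ (Fin k)))
    (fun u hu => by
      obtain ⟨z, hz, hz1⟩ := hZ u hu
      exact ⟨z, by exact_mod_cast hz, hz1⟩) f
    (by
      intro z hz z' hz'
      obtain ⟨v, hv1, -, hv3⟩ := hf z (by exact_mod_cast hz) z' (by exact_mod_cast hz')
      have h1 : ((s * κ) * ‖z - z'‖) ^ P ≤ ‖v‖ ^ P :=
        Real.rpow_le_rpow (by positivity) hv1 hP0.le
      rw [pilp_rpow hp v] at h1
      rw [Real.mul_rpow hsκ.le (norm_nonneg _)] at h1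
      have h2 : ∑ j, |f z j - f z' j| ^ P = (∑ j, |v j| ^ P) / (s * κ) ^ P := by
        rw [Finset.sum_div]
        refine Finset.sum_congr rfl fun j _ => ?_
        rw [hv3 j, Real.div_rpow (abs_nonneg _) hsκ.le]
      rw [h2, le_div_iff₀ (Real.rpow_pos_of_pos hsκ P)]
      linarith)
    (by
      intro j z hz z' hz'
      obtain ⟨v, -, hv2, hv3⟩ := hf z (by exact_mod_cast hz) z' (by exact_mod_cast hz')
      rw [hv3 j, div_le_iff₀ hsκ]
      have h1 := PiLp.norm_apply_le v j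
      rw [Real.norm_eq_abs] at h1
      have h2 : |v j| ≤ D * (s * κ) * ‖z - z'‖ := h1.trans hv2
      refine h2.trans (le_of_eq ?_)
      ring)

theorem lower_set (p : ℝ≥0∞) [Fact (1 ≤ p)] (hp : p ≠ ∞) (hp2 : 2 ≤ p.toReal) :
    ∃ c : ℝ, 0 < c ∧ ∃ n₀ : ℕ, ∀ n : ℕ, n₀ ≤ n →
      ∃ (α : Type u) (_ : MeasurableSpace α) (μ : Measure α) (X : Finset (Lp ℝ p μ)),
      X.card = n ∧ ∀ D : ℝ, 1 ≤ D → ∀ d : ℕ, HasMap p X d D →
        c * (Real.log n / Real.log (Real.log n)) ^ (p.toReal / 2) / D ^ p.toReal ≤ d := by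
  obtain ⟨n₀, hn₀⟩ := low_params
  set P := p.toReal with hP
  have hA := lowA_pos P
  refine ⟨(1 / 32) ^ (P / 2) / lowA P, by positivity, n₀, fun n hn => ?_⟩
  obtain ⟨k, hk, hkn, hq0, hq⟩ := hn₀ n hn
  obtain ⟨α, mα, μ, X, hX, hX2⟩ := low_set.{u} p hp hp2 k n hk hkn
  refine ⟨α, mα, μ, X, hX, fun D hD d hd => ?_⟩
  have h := hX2 D hD d hd
  have hD0 : 0 < D ^ P := Real.rpow_pos_of_pos (by linarith) P
  rw [div_le_iff₀ hD0]
  rw [div_mul_eq_mul_div, div_le_iff₀ hA]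
  have h1 : (1 / 32 : ℝ) ^ (P / 2) * (Real.log n / Real.log (Real.log n)) ^ (P / 2) ≤
      ((k : ℝ) / 8) ^ (P / 2) := by
    rw [← Real.mul_rpow (by norm_num) hq0]
    apply Real.rpow_le_rpow (by positivity) _ (by positivity)
    linarith
  calc (1 / 32 : ℝ) ^ (P / 2) * (Real.log n / Real.log (Real.log n)) ^ (P / 2) ≤ _ := h1
    _ ≤ _ := h
    _ = _ := by ring

/-- normalised form of `HasMap` with a totally defined map -/
theorem hasMap_total (p : ℝ≥0∞) [Fact (1 ≤ p)] {E : Type u} [NormedAddCommGroup E]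
    (X : Finset E) (D : ℝ) {d : ℕ} (h : HasMap p X d D) :
    ∃ f : E → PiLp p (fun _ : Fin d => ℝ), ∀ x ∈ X, ∀ y ∈ X,
      ‖x - y‖ ≤ ‖f x - f y‖ ∧ ‖f x - f y‖ ≤ D * ‖x - y‖ := by
  classical
  obtain ⟨f, s, hs, hf⟩ := h
  refine ⟨fun x => if hx : x ∈ X then s⁻¹ • f ⟨x, hx⟩ else 0, fun x hx y hy => ?_⟩
  simp only [hx, hy, dif_pos]
  rw [← smul_sub, norm_smul, norm_inv, Real.norm_eq_abs, abs_of_pos hs]
  obtain ⟨h1, h2⟩ := hf ⟨x, hx⟩ ⟨y, hy⟩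
  simp only at h1 h2
  constructor
  · rw [inv_mul_eq_div, le_div_iff₀ hs]; linarith
  · rw [inv_mul_eq_div, div_le_iff₀ hs]; linarith

theorem hasMap_of_total (p : ℝ≥0∞) [Fact (1 ≤ p)] {E : Type u} [NormedAddCommGroup E]
    (X : Finset E) (D : ℝ) {d : ℕ} (s : ℝ) (hs : 0 < s) (f : E → PiLp p (fun _ : Fin d => ℝ))
    (hf : ∀ x ∈ X, ∀ y ∈ X, s * ‖x - y‖ ≤ ‖f x - f y‖ ∧ ‖f x - f y‖ ≤ D * s * ‖x - y‖) :
    HasMap p X d D :=
  ⟨fun x => f x, s, hs, fun x y => hf x x.2 y y.2⟩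

end Vale.Agent.P249
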